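import Vale.Agent.P214.SCALE.Int

/-!
# P214, block SCALE: invariance under linear isometries `U : E ≃ₗᵢ F`
-/

open Set Filter Topology MeasureTheory Metric
open scoped RealInnerProductSpace ENNReal ContDiff Pointwise

set_option linter.all false

namespace Vale.Agent.P214.SCALE

open Skel

variable {E : Type*} [NormedAddCommGroup E] [InnerProductSpace ℝ E] [FiniteDimensional ℝ E]
variable {F : Type*} [NormedAddCommGroup F] [InnerProductSpace ℝ F] [FiniteDimensional ℝ F]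

/-- conjugation of an operator by an isometry -/
noncomputable def conj (U : E ≃ₗᵢ[ℝ] F) (A : E →L[ℝ] E) : F →L[ℝ] F :=
  (U.toContinuousLinearEquiv : E →L[ℝ] F).comp
    (A.comp (U.symm.toContinuousLinearEquiv : F →L[ℝ] E))

@[simp] lemma conj_apply (U : E ≃ₗᵢ[ℝ] F) (A : E →L[ℝ] E) (y : F) :
    conj U A y = U (A (U.symm y)) := rfl

lemma conj_comp (U : E ≃ₗᵢ[ℝ] F) (A B : E →L[ℝ] E) :
    conj U (A.comp B) = (conj U A).comp (conj U B) := by
  ext y; simp

lemma conj_sub (U : E ≃ₗᵢ[ℝ] F) (A B : E →L[ℝ] E) :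
    conj U (A - B) = conj U A - conj U B := by
  ext y; simp

lemma conj_id (U : E ≃ₗᵢ[ℝ] F) : conj U (ContinuousLinearMap.id ℝ E) =
    ContinuousLinearMap.id ℝ F := by
  ext y; simp

lemma tr_conj (U : E ≃ₗᵢ[ℝ] F) (A : E →L[ℝ] E) : FV.tr (conj U A) = FV.tr A := by
  rw [FV.tr, FV.tr, ← LinearMap.trace_conj' (A : E →ₗ[ℝ] E) U.toLinearEquiv]
  rfl

lemma continuous_conj (U : E ≃ₗᵢ[ℝ] F) : Continuous (conj U) := by
  unfold conj
  have h1 : Continuous fun A : E →L[ℝ] E =>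
      A.comp (U.symm.toContinuousLinearEquiv : F →L[ℝ] E) := by fun_prop
  exact (ContinuousLinearMap.compL ℝ F E F
    (U.toContinuousLinearEquiv : E →L[ℝ] F)).continuous.comp h1

/-- the image plane -/
abbrev mapS (U : E ≃ₗᵢ[ℝ] F) (T : Submodule ℝ E) : Submodule ℝ F :=
  T.map (U.toLinearEquiv : E →ₗ[ℝ] F)

lemma star_mapS (U : E ≃ₗᵢ[ℝ] F) (T : Submodule ℝ E) :
    (mapS U T).starProjection = conj U T.starProjection := by
  ext y
  rw [conj_apply]
  exact Submodule.starProjection_map_apply U T y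

lemma star_mapS_apply (U : E ≃ₗᵢ[ℝ] F) (T : Submodule ℝ E) (y : E) :
    (mapS U T).starProjection (U y) = U (T.starProjection y) := by
  rw [star_mapS, conj_apply, U.symm_apply_apply]

lemma finrank_mapS (U : E ≃ₗᵢ[ℝ] F) (T : Submodule ℝ E) :
    Module.finrank ℝ (mapS U T) = Module.finrank ℝ T :=
  LinearEquiv.finrank_map_eq U.toLinearEquiv T

lemma tilt_conj (U : E ≃ₗᵢ[ℝ] F) (T : Submodule ℝ E) (B : E →L[ℝ] E) :
    FV.tilt (mapS U T) (conj U B) = FV.tilt T B := by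
  rw [FV.tilt_eq, FV.tilt_eq, star_mapS, ← conj_comp, tr_conj, tr_conj]

/-- the transported field of planes -/
noncomputable def isoP (U : E ≃ₗᵢ[ℝ] F) (P : E → E →L[ℝ] E) (y : F) : F →L[ℝ] F :=
  conj U (P (U.symm y))

@[simp] lemma isoP_apply (U : E ≃ₗᵢ[ℝ] F) (P : E → E →L[ℝ] E) (y : E) :
    isoP U P (U y) = conj U (P y) := by simp [isoP]

lemma mem_ball_iso (U : E ≃ₗᵢ[ℝ] F) (x z : E) (R : ℝ) :
    U x ∈ ball (U z) R ↔ x ∈ ball z R := by
  rw [mem_ball, mem_ball, U.dist_map]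

lemma preimage_iso_cylSet (U : E ≃ₗᵢ[ℝ] F) (T : Submodule ℝ E) (z : E) (R : ℝ) :
    U ⁻¹' cylSet (mapS U T) (U z) R = cylSet T z R := by
  ext y
  rw [mem_preimage, cylSet, cylSet, mem_setOf_eq, mem_setOf_eq, star_mapS_apply]
  exact mem_ball_iso U _ _ _

lemma baseTest_iso (U : E ≃ₗᵢ[ℝ] F) {T : Submodule ℝ E} {z : E} {R : ℝ} {φ : F → ℝ}
    (h : BaseTest (mapS U T) (U z) R φ) : BaseTest T z R (φ ∘ U) := by
  refine ⟨fun x => h.nonneg _, fun x => h.le_one _, fun x hx => ?_, fun x y => ?_⟩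
  · refine h.supp _ ?_
    rw [← U.map_sub, U.norm_map]
    exact hx
  · have h1 := h.lip (U x) (U y)
    rw [← U.map_sub, U.norm_map] at h1
    exact h1

variable [MeasurableSpace E] [BorelSpace E] [MeasurableSpace F] [BorelSpace F]
variable {m Q : ℕ} {z : E} {R : ℝ} {P : E → E →L[ℝ] E} {T : Submodule ℝ E} {ν : Measure E}

lemma measurableEmbedding_iso (U : E ≃ₗᵢ[ℝ] F) : MeasurableEmbedding U :=
  U.toHomeomorph.measurableEmbedding

/-- **approximate tangent planes under isometries** -/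
lemma isApproxTangent_iso (U : E ≃ₗᵢ[ℝ] F) {x : E} {q : ℕ} {S : Submodule ℝ E}
    (h : IsApproxTangent m ν x q S) : IsApproxTangent m (ν.map U) (U x) q (mapS U S) := by
  refine ⟨by rw [finrank_mapS]; exact h.1, fun f hf hc => ?_⟩
  have h1 := h.2 (f ∘ U) (hf.comp U.continuous)
    (hc.comp_homeomorph U.toHomeomorph)
  have h2 : ∫ y in ((mapS U S : Submodule ℝ F) : Set F), f y ∂(μH[m] : Measure F) =
      ∫ y in (S : Set E), (f ∘ U) y ∂(μH[m] : Measure E) := by
    have h3 : MeasurePreserving U (μH[m] : Measure E) (μH[m] : Measure F) :=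
      U.toIsometryEquiv.measurePreserving_hausdorffMeasure _
    rw [← h3.setIntegral_preimage_emb (measurableEmbedding_iso U)]
    have h4 : U ⁻¹' ((mapS U S : Submodule ℝ F) : Set F) = (S : Set E) := by
      ext y
      simp [mapS]
    rw [h4]
    rfl
  rw [h2]
  refine h1.congr fun r => ?_
  rw [(measurableEmbedding_iso U).integral_map]
  congr 1
  refine integral_congr_ae (Eventually.of_forall fun y => ?_)
  simp only [Function.comp]
  rw [← U.map_sub, ← U.map_smul]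

/-- **`CylStat` under isometries** -/
theorem cylStat_iso (U : E ≃ₗᵢ[ℝ] F) {h : ℝ} (hC : FV.CylStat m T (ball z R) h ν P) :
    FV.CylStat m (mapS U T) (ball (U z) R) h (ν.map U) (isoP U P) := by
  have := hC.fin
  refine ⟨?_, ?_, ?_, by rw [finrank_mapS]; exact hC.dimT, isOpen_ball, ?_, ?_⟩
  · exact Measure.isFiniteMeasure_map _ _
  · rw [(measurableEmbedding_iso U).aestronglyMeasurable_map_iff]
    have : (isoP U P) ∘ U = fun y => conj U (P y) := by
      ext1 y; exact isoP_apply U P y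
    rw [this]
    exact (continuous_conj U).comp_aestronglyMeasurable hC.meas
  · rw [(measurableEmbedding_iso U).ae_map_iff]
    filter_upwards [hC.proj] with y hy
    obtain ⟨S, hS, hP⟩ := hy
    refine ⟨mapS U S, by rw [finrank_mapS]; exact hS, ?_⟩
    rw [isoP_apply, hP, star_mapS]
  · rw [(measurableEmbedding_iso U).ae_map_iff]
    filter_upwards [hC.slab] with y hy hmem
    rw [star_mapS_apply, mem_ball_iso] at hmem
    rw [star_mapS_apply, ← U.map_sub, U.norm_map]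
    exact hy hmem
  · intro X hX hb
    rw [(measurableEmbedding_iso U).integral_map]
    obtain ⟨K, hK, hKG, h0⟩ := hb
    set Y : E → E := fun y => U.symm (X (U y)) with hY
    have hYc : ContDiff ℝ 1 Y := U.symm.contDiff.comp (hX.comp U.contDiff)
    have hYb : FV.BaseCpt T (ball z R) Y := by
      refine ⟨U.symm '' K, hK.image U.symm.continuous, ?_, ?_⟩
      · rintro _ ⟨x, hx, rfl⟩
        have := hKG hx
        rw [← mem_ball_iso U, U.apply_symm_apply]
        exact this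
      · intro y hy
        have : X (U y) = 0 := by
          refine h0 _ fun hmem => hy ⟨_, hmem, ?_⟩
          rw [star_mapS_apply, U.symm_apply_apply]
        simp [hY, this]
    have h1 := hC.stat Y hYc hYb
    rw [← h1]
    refine integral_congr_ae (Eventually.of_forall fun y => ?_)
    have hXd : HasFDerivAt X (fderiv ℝ X (U y)) (U y) :=
      (hX.differentiable (by norm_num) _).hasFDerivAt
    have h2 : HasFDerivAt Y ((U.symm.toContinuousLinearEquiv : F →L[ℝ] E).comp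
        ((fderiv ℝ X (U y)).comp (U.toContinuousLinearEquiv : E →L[ℝ] F))) y := by
      have ha : HasFDerivAt (fun y : E => U y) (U.toContinuousLinearEquiv : E →L[ℝ] F) y :=
        (U.toContinuousLinearEquiv : E →L[ℝ] F).hasFDerivAt
      have hb : HasFDerivAt (fun y : F => U.symm y)
          (U.symm.toContinuousLinearEquiv : F →L[ℝ] E) (X (U y)) :=
        (U.symm.toContinuousLinearEquiv : F →L[ℝ] E).hasFDerivAt
      exact hb.comp y (hXd.comp y ha)
    simp only [isoP_apply]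
    rw [h2.fderiv, ← tr_conj U]
    congr 1
    ext v
    simp

/-- `exc` under isometries -/
lemma exc_iso (U : E ≃ₗᵢ[ℝ] F) (T : Submodule ℝ E) (ν : Measure E)
    (P : E → E →L[ℝ] E) (z : E) (R : ℝ) :
    exc (mapS U T) (ν.map U) (isoP U P) (U z) R = exc T ν P z R := by
  rw [exc, (measurableEmbedding_iso U).setIntegral_map, preimage_iso_cylSet, exc]
  simp only [isoP_apply, tilt_conj]

lemma setIntegral_plane_iso (U : E ≃ₗᵢ[ℝ] F) (m : ℕ) (T : Submodule ℝ E) (φ : F → ℝ) :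
    ∫ x in ((mapS U T : Submodule ℝ F) : Set F), φ x ∂(μH[m] : Measure F) =
      ∫ x in (T : Set E), φ (U x) ∂(μH[m] : Measure E) := by
  have h3 : MeasurePreserving U (μH[m] : Measure E) (μH[m] : Measure F) :=
    U.toIsometryEquiv.measurePreserving_hausdorffMeasure _
  rw [← h3.setIntegral_preimage_emb (measurableEmbedding_iso U)]
  have h4 : U ⁻¹' ((mapS U T : Submodule ℝ F) : Set F) = (T : Set E) := by
    ext y
    simp [mapS]
  rw [h4]

/-- `Ffl` under isometries -/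
lemma ffl_iso (U : E ≃ₗᵢ[ℝ] F) (m Q : ℕ) (T : Submodule ℝ E) (ν : Measure E)
    (P : E → E →L[ℝ] E) (φ : F → ℝ) :
    Ffl m Q (mapS U T) (ν.map U) (isoP U P) φ = Ffl m Q T ν P (φ ∘ U) := by
  rw [Ffl, (measurableEmbedding_iso U).integral_map, setIntegral_plane_iso, Ffl]
  simp only [isoP_apply, tilt_conj, star_mapS_apply, Function.comp]

lemma ac_iso (U : E ≃ₗᵢ[ℝ] F) (h : ν ≪ (μH[m] : Measure E)) :
    ν.map U ≪ (μH[m] : Measure F) := by
  have h3 : MeasurePreserving U (μH[m] : Measure E) (μH[m] : Measure F) :=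
    U.toIsometryEquiv.measurePreserving_hausdorffMeasure _
  rw [← h3.map_eq]
  exact h.map h3.measurable

lemma low_iso (U : E ≃ₗᵢ[ℝ] F) {c : Set E}
    (h : ∀ S ⊆ c, MeasurableSet S → (μH[m] : Measure E) S ≤ ν S)
    {S : Set F} (hS : S ⊆ U '' c) (hm : MeasurableSet S) :
    (μH[m] : Measure F) S ≤ ν.map U S := by
  rw [(measurableEmbedding_iso U).map_apply]
  have h3 : MeasurePreserving U (μH[m] : Measure E) (μH[m] : Measure F) :=
    U.toIsometryEquiv.measurePreserving_hausdorffMeasure _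
  rw [← h3.measure_preimage_emb (measurableEmbedding_iso U) S]
  refine h _ ?_ (hm.preimage U.continuous.measurable)
  intro x hx
  obtain ⟨y, hy, hyx⟩ := hS hx
  rwa [← U.injective hyx]

lemma ae_mem_image_iso (U : E ≃ₗᵢ[ℝ] F) {c : Set E} (h : ∀ᵐ y ∂ν, y ∈ c) :
    ∀ᵐ y ∂(ν.map U), y ∈ U '' c := by
  rw [(measurableEmbedding_iso U).ae_map_iff]
  filter_upwards [h] with y hy
  exact ⟨y, hy, rfl⟩

/-- **`IntCyl` under isometries** -/
theorem intCyl_iso (U : E ≃ₗᵢ[ℝ] F) {h δ : ℝ} (hI : IntCyl m Q T z R h δ ν P) :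
    IntCyl m Q (mapS U T) (U z) R h δ (ν.map U) (isoP U P) := by
  refine ⟨cylStat_iso U hI.cyl, ⟨z, hI.mem, rfl⟩, hI.pos, ?_, ?_⟩
  · rw [(measurableEmbedding_iso U).ae_map_iff]
    filter_upwards [hI.int] with y hy hmem
    rw [← mem_preimage, preimage_iso_cylSet] at hmem
    obtain ⟨q, hq, S, hS, ht⟩ := hy hmem
    refine ⟨q, hq, mapS U S, ?_, isApproxTangent_iso U ht⟩
    rw [isoP_apply, hS, star_mapS]
  · rw [measureReal_def, (measurableEmbedding_iso U).map_apply, preimage_iso_cylSet,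
      ← measureReal_def]
    exact hI.mass

/-- the rate lemma at unit scale around the origin, for one plane `T` -/
def RateFlatAt (m Q : ℕ) (T : Submodule ℝ E) : Prop :=
  ∀ A : ℝ, 0 < A → ∃ C ε : ℝ, 0 < C ∧ 0 < ε ∧ ∀ (h : ℝ) (ν : Measure E)
    (P : E → E →L[ℝ] E) (φ : E → ℝ), IntCyl m Q T 0 2 h ε ν P →
    exc T ν P 0 2 ≤ ε → BaseTest T 0 1 φ →
    Ffl m Q T ν P φ ≤ C * (Real.log (exc T ν P 0 2)⁻¹) ^ (-A) * exc T ν P 0 2

omit [FiniteDimensional ℝ E] in
lemma exists_iso_mapS [FiniteDimensional ℝ E] (T T' : Submodule ℝ E)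
    (h : Module.finrank ℝ T = Module.finrank ℝ T') : ∃ U : E ≃ₗᵢ[ℝ] E, mapS U T = T' := by
  obtain ⟨e⟩ : Nonempty (T ≃ₗᵢ[ℝ] T') := ⟨(stdOrthonormalBasis ℝ T).equiv
    (stdOrthonormalBasis ℝ T') (finCongr h)⟩
  set L : T →ₗᵢ[ℝ] E := T'.subtypeₗᵢ.comp e.toLinearIsometry with hL
  set U0 : E →ₗᵢ[ℝ] E := L.extend with hU0
  set U : E ≃ₗᵢ[ℝ] E := U0.toLinearIsometryEquiv rfl with hU
  refine ⟨U, ?_⟩
  ext y
  simp only [mapS, Submodule.mem_map]
  constructor
  · rintro ⟨x, hx, rfl⟩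
    have h1 : U0 x = L ⟨x, hx⟩ := L.extend_apply ⟨x, hx⟩
    have h2 : (U.toLinearEquiv : E →ₗ[ℝ] E) x = L ⟨x, hx⟩ := h1
    rw [h2]
    exact (e ⟨x, hx⟩).2
  · intro hy
    refine ⟨(e.symm ⟨y, hy⟩ : E), (e.symm ⟨y, hy⟩).2, ?_⟩
    have h1 : U0 (e.symm ⟨y, hy⟩ : E) = L (e.symm ⟨y, hy⟩) := L.extend_apply _
    have h2 : (U.toLinearEquiv : E →ₗ[ℝ] E) (e.symm ⟨y, hy⟩ : E) = L (e.symm ⟨y, hy⟩) := h1
    rw [h2]
    simp [hL]

/-- **one plane is enough** -/
theorem rateFlatUnit_of_at {T₀ : Submodule ℝ E} (h0 : Module.finrank ℝ T₀ = m)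
    (h : RateFlatAt m Q T₀) : RateFlatUnit E m Q := by
  intro A hA
  obtain ⟨C, ε, hC, hε, H⟩ := h A hA
  refine ⟨C, ε, hC, hε, fun T h ν P φ hI hexc hφ => ?_⟩
  obtain ⟨U, hU⟩ := exists_iso_mapS T T₀ (by rw [hI.cyl.dimT, h0])
  have hI' := intCyl_iso U hI
  have he := exc_iso U T ν P 0 2
  rw [hU, U.map_zero] at hI' he
  set ψ : E → ℝ := φ ∘ U.symm with hψ
  have hψ' : BaseTest T₀ 0 1 ψ := by
    have hU' : mapS U.symm T₀ = T := by
      rw [← hU]
      ext y
      simp only [mapS, Submodule.mem_map]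
      constructor
      · rintro ⟨_, ⟨x, hx, rfl⟩, rfl⟩
        simpa using hx
      · intro hy
        exact ⟨U y, ⟨y, hy, rfl⟩, by simp⟩
    have := baseTest_iso U.symm (T := T₀) (z := 0) (R := 1) (φ := φ)
    rw [hU', U.symm.map_zero] at this
    exact this hφ
  have hF := ffl_iso U m Q T ν P ψ
  rw [hU] at hF
  have h3 : ψ ∘ U = φ := by ext y; simp [hψ]
  rw [h3] at hF
  have key := H h (ν.map U) (isoP U P) ψ hI' (by rw [he]; exact hexc) hψ'
  rwa [hF, he] at key

/-- **the rate lemma for one plane at unit scale implies the rate lemma** -/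
theorem rateFlat_of_at {T₀ : Submodule ℝ E} (h0 : Module.finrank ℝ T₀ = m)
    (h : RateFlatAt m Q T₀) : RateFlat E m Q :=
  rateFlat_of_unit (rateFlatUnit_of_at h0 h)

/-- if there is no `m`-plane at all, the rate lemma is empty -/
theorem rateFlat_of_lt (h : Module.finrank ℝ E < m) : RateFlat E m Q := by
  refine fun A _ => ⟨1, 1, one_pos, one_pos, fun T z R h' ν P φ hI _ _ => ?_⟩
  have := hI.cyl.dimT
  have h2 := Submodule.finrank_le T
  omega

end Vale.Agent.P214.SCALE
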