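import Vale.Agent.P214.SCALE.Dil

/-!
# P214, block SCALE: `exc`, `Ffl`, `BaseTest`, `IntCyl`, `RateFlat` under dilations
-/

open Set Filter Topology MeasureTheory Metric
open scoped RealInnerProductSpace ENNReal ContDiff Pointwise

set_option linter.all false

namespace Vale.Agent.P214.SCALE

open Skel

variable {E : Type*} [NormedAddCommGroup E] [InnerProductSpace ℝ E] [FiniteDimensional ℝ E]
variable {m Q : ℕ} {a z : E} {l R : ℝ} {P : E → E →L[ℝ] E} {T : Submodule ℝ E}

lemma preimage_dil_cylSet (T : Submodule ℝ E) (a : E) (hl : 0 < l) (z : E) (R : ℝ) :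
    dil a l ⁻¹' cylSet T (dil (T.starProjection a) l z) (l * R) = cylSet T z R := by
  ext y
  rw [mem_preimage, cylSet, cylSet, mem_setOf_eq, mem_setOf_eq, star_dil]
  exact dil_mem_ball _ hl _ _ _

/-- `BaseTest` under dilations -/
lemma baseTest_dil (hl : 0 < l) {b : E} {φ : E → ℝ} (h : BaseTest T (dil b l z) (l * R) φ) :
    BaseTest T z R (φ ∘ dil b l) := by
  refine ⟨fun x => h.nonneg _, fun x => h.le_one _, fun x hx => ?_, fun x y => ?_⟩
  · refine h.supp _ ?_
    have := dist_dil b hl x z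
    rw [dist_eq_norm, dist_eq_norm] at this
    rw [this]
    exact mul_le_mul_of_nonneg_left hx hl.le
  · have h1 := h.lip (dil b l x) (dil b l y)
    have h2 := dist_dil b hl x y
    rw [dist_eq_norm, dist_eq_norm] at h2
    rw [h2, mul_inv] at h1
    calc |(φ ∘ dil b l) x - (φ ∘ dil b l) y| ≤ l⁻¹ * R⁻¹ * (l * ‖x - y‖) := h1
      _ = R⁻¹ * ‖x - y‖ := by field_simp

variable [MeasurableSpace E] [BorelSpace E] {ν : Measure E}

/-- `exc` under dilations -/
lemma exc_dil (T : Submodule ℝ E) (m : ℕ) (a : E) (hl : 0 < l) (ν : Measure E)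
    (P : E → E →L[ℝ] E) (z : E) (R : ℝ) :
    exc T (dilM m a l ν) (dilP a l P) (dil (T.starProjection a) l z) (l * R) =
      l ^ m * exc T ν P z R := by
  rw [exc, setIntegral_dilM m hl, preimage_dil_cylSet T a hl, smul_eq_mul, exc]
  simp only [dilP_dil a hl]

/-- `Ffl` under dilations -/
lemma ffl_dil (T : Submodule ℝ E) (m Q : ℕ) (a : E) (hl : 0 < l) (ν : Measure E)
    (P : E → E →L[ℝ] E) (φ : E → ℝ) :
    Ffl m Q T (dilM m a l ν) (dilP a l P) φ =
      l ^ m * Ffl m Q T ν P (φ ∘ dil (T.starProjection a) l) := by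
  rw [Ffl, integral_dilM m hl, smul_eq_mul,
    integral_plane_dil (T := T) m (b := T.starProjection a) (T.starProjection_apply_mem a) hl, Ffl]
  simp only [dilP_dil a hl, star_dil, Function.comp]
  ring

/-- **`IntCyl` under dilations**, with an arbitrary new slab height `h'` -/
theorem intCyl_dil (hl : 0 < l) {h h' δ : ℝ} (hI : IntCyl m Q T z R h δ ν P)
    (hh : ∀ᵐ y ∂ν, T.starProjection y ∈ ball z R →
      ‖dil a l y - T.starProjection (dil a l y)‖ ≤ h') :
    IntCyl m Q T (dil (T.starProjection a) l z) (l * R) h' δ (dilM m a l ν) (dilP a l P) := by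
  refine ⟨?_, ?_, mul_pos hl hI.pos, ?_, ?_⟩
  · have := cylStat_dil (a := a) hl hI.cyl hh
    rwa [preimage_dilInv_ball _ hl] at this
  · exact T.add_mem (T.starProjection_apply_mem a) (T.smul_mem l hI.mem)
  · rw [ae_dilM m hl]
    filter_upwards [hI.int] with y hy hmem
    rw [← mem_preimage, preimage_dil_cylSet T a hl] at hmem
    obtain ⟨q, hq, S, hS, ht⟩ := hy hmem
    exact ⟨q, hq, S, by rw [dilP_dil a hl]; exact hS, isApproxTangent_dil hl ht⟩
  · rw [real_dilM m hl, preimage_dil_cylSet T a hl, mul_pow]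
    have h1 : l ^ m * ν.real (cylSet T z R) - Q * om m * (l ^ m * R ^ m) =
        l ^ m * (ν.real (cylSet T z R) - Q * om m * R ^ m) := by ring
    rw [h1, abs_mul, abs_of_pos (pow_pos hl m)]
    calc l ^ m * |ν.real (cylSet T z R) - Q * om m * R ^ m| ≤ l ^ m * (δ * R ^ m) :=
          mul_le_mul_of_nonneg_left hI.mass (pow_pos hl m).le
      _ = δ * (l ^ m * R ^ m) := by ring

/-- `IntCyl` under dilations with `a ∈ T` -/
theorem intCyl_dil_mem (hl : 0 < l) (ha : a ∈ T) {h δ : ℝ} (hI : IntCyl m Q T z R h δ ν P) :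
    IntCyl m Q T (dil a l z) (l * R) (l * h) δ (dilM m a l ν) (dilP a l P) := by
  have h1 : T.starProjection a = a := Submodule.starProjection_eq_self_iff.2 ha
  have h2 := intCyl_dil (a := a) hl (h' := l * h) hI ?_
  · rwa [h1] at h2
  · filter_upwards [hI.cyl.slab] with y hy hmem
    have h3 : dil a l y - T.starProjection (dil a l y) = l • (y - T.starProjection y) := by
      rw [star_dil, h1]; simp [dil, smul_sub]
    rw [h3, norm_smul, Real.norm_eq_abs, abs_of_pos hl]
    exact mul_le_mul_of_nonneg_left (hy hmem) hl.le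

/-- the rate lemma at unit scale around the origin, for all planes -/
def RateFlatUnit (E : Type*) [NormedAddCommGroup E] [InnerProductSpace ℝ E]
    [FiniteDimensional ℝ E] [MeasurableSpace E] [BorelSpace E] (m Q : ℕ) : Prop :=
  ∀ A : ℝ, 0 < A → ∃ C ε : ℝ, 0 < C ∧ 0 < ε ∧ ∀ (T : Submodule ℝ E) (h : ℝ) (ν : Measure E)
    (P : E → E →L[ℝ] E) (φ : E → ℝ), IntCyl m Q T 0 2 h ε ν P →
    exc T ν P 0 2 ≤ ε → BaseTest T 0 1 φ →
    Ffl m Q T ν P φ ≤ C * (Real.log (exc T ν P 0 2)⁻¹) ^ (-A) * exc T ν P 0 2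

/-- **it is enough to prove the rate lemma at unit scale** -/
theorem rateFlat_of_unit (h : RateFlatUnit E m Q) : RateFlat E m Q := by
  intro A hA
  obtain ⟨C, ε, hC, hε, H⟩ := h A hA
  refine ⟨C, ε, hC, hε, fun T z R h ν P φ hI hexc hφ => ?_⟩
  have hR2 := hI.pos
  have hR : 0 < R := by linarith
  have hz := hI.mem
  -- the dilation `y ↦ R⁻¹ (y - z)`
  set l : ℝ := R⁻¹ with hl_def
  have hl : 0 < l := inv_pos.2 hR
  set a : E := -(l • z) with ha_def
  have ha : a ∈ T := T.neg_mem (T.smul_mem _ hz)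
  have hpa : T.starProjection a = a := Submodule.starProjection_eq_self_iff.2 ha
  have hz0 : dil a l z = 0 := by simp [dil, ha_def]
  have hlR : l * R = 1 := inv_mul_cancel₀ hR.ne'
  have h2 : l * (2 * R) = 2 := by rw [← mul_assoc, mul_comm l 2, mul_assoc, hlR, mul_one]
  have hI' := intCyl_dil_mem hl ha hI
  rw [hz0, h2] at hI'
  have hexc' := exc_dil T m a hl ν P z (2 * R)
  rw [hpa, hz0, h2] at hexc'
  -- the transported test function
  set ψ : E → ℝ := φ ∘ dilInv a l with hψ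
  have hψφ : ψ ∘ dil a l = φ := by
    ext y; simp [hψ, dilInv_dil a hl]
  have hinv : dilInv a l = dil (-(l⁻¹ • a)) l⁻¹ := funext fun y => dilInv_eq_dil a y
  have hli : 0 < l⁻¹ := inv_pos.2 hl
  have hψ' : BaseTest T 0 1 ψ := by
    have h3 : dil (-(l⁻¹ • a)) l⁻¹ (0 : E) = z := by
      rw [← dilInv_eq_dil, ← hz0, dilInv_dil a hl]
    have h4 : l⁻¹ * 1 = R := by rw [mul_one, hl_def, inv_inv]
    rw [hψ, hinv]
    refine baseTest_dil hli ?_
    rw [h3, h4]
    exact hφ
  have hF := ffl_dil T m Q a hl ν P ψ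
  rw [hpa, hψφ] at hF
  have hlm : 0 < l ^ m := pow_pos hl m
  have hdiv : exc T ν P z (2 * R) / R ^ m = l ^ m * exc T ν P z (2 * R) := by
    rw [hl_def, inv_pow, div_eq_inv_mul]
  have h6 : l ^ m * exc T ν P z (2 * R) ≤ ε := by
    rw [← hdiv]
    rw [div_le_iff₀ (pow_pos hR m)]
    exact hexc
  have key := H T (l * h) (dilM m a l ν) (dilP a l P) ψ hI' (by rw [hexc']; exact h6) hψ'
  rw [hF, hexc'] at key
  rw [hdiv]
  have h7 : l ^ m * Ffl m Q T ν P φ ≤ l ^ m * (C *
      (Real.log (l ^ m * exc T ν P z (2 * R))⁻¹) ^ (-A) * exc T ν P z (2 * R)) := by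
    calc l ^ m * Ffl m Q T ν P φ ≤ _ := key
      _ = _ := by ring
  exact le_of_mul_le_mul_left h7 hlm

end Vale.Agent.P214.SCALE
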