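import Vale.Agent.P214.Skel.Defs

/-!
# P214, block SCALE: invariance under dilations `y ↦ a + l y`

`dil a l`, `dilM m a l ν = l^m (dil a l)_# ν`, `dilP a l P = P ∘ (dil a l)⁻¹`.
-/

open Set Filter Topology MeasureTheory Metric
open scoped RealInnerProductSpace ENNReal ContDiff Pointwise

set_option linter.all false

namespace Vale.Agent.P214.SCALE

variable {E : Type*} [NormedAddCommGroup E] [InnerProductSpace ℝ E] [FiniteDimensional ℝ E]

/-- the dilation `y ↦ a + l y` -/
def dil (a : E) (l : ℝ) (y : E) : E := a + l • y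

/-- the inverse dilation -/
noncomputable def dilInv (a : E) (l : ℝ) (y : E) : E := l⁻¹ • (y - a)

omit [FiniteDimensional ℝ E] in
@[simp] lemma dil_dilInv (a : E) {l : ℝ} (hl : 0 < l) (y : E) : dil a l (dilInv a l y) = y := by
  simp [dil, dilInv, smul_smul, mul_inv_cancel₀ hl.ne']

omit [FiniteDimensional ℝ E] in
@[simp] lemma dilInv_dil (a : E) {l : ℝ} (hl : 0 < l) (y : E) : dilInv a l (dil a l y) = y := by
  simp [dil, dilInv, smul_smul, inv_mul_cancel₀ hl.ne']

omit [FiniteDimensional ℝ E] in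
lemma continuous_dil (a : E) (l : ℝ) : Continuous (dil a l) :=
  continuous_const.add (continuous_id.const_smul l)

omit [FiniteDimensional ℝ E] in
lemma continuous_dilInv (a : E) (l : ℝ) : Continuous (dilInv a l) :=
  (continuous_id.sub continuous_const).const_smul l⁻¹

/-- the dilation as a homeomorphism -/
noncomputable def dilHomeo (a : E) {l : ℝ} (hl : 0 < l) : E ≃ₜ E where
  toFun := dil a l
  invFun := dilInv a l
  left_inv := dilInv_dil a hl
  right_inv := dil_dilInv a hl
  continuous_toFun := continuous_dil a l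
  continuous_invFun := continuous_dilInv a l

omit [FiniteDimensional ℝ E] in
lemma dilInv_eq_dil (a : E) {l : ℝ} (y : E) :
    dilInv a l y = dil (-(l⁻¹ • a)) l⁻¹ y := by
  simp [dil, dilInv, smul_sub, sub_eq_add_neg, add_comm]

lemma star_dil (T : Submodule ℝ E) (a : E) (l : ℝ) (y : E) :
    T.starProjection (dil a l y) = dil (T.starProjection a) l (T.starProjection y) := by
  simp [dil]

omit [FiniteDimensional ℝ E] in
lemma dist_dil (a : E) {l : ℝ} (hl : 0 < l) (x y : E) :
    dist (dil a l x) (dil a l y) = l * dist x y := by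
  simp [dil, dist_eq_norm, ← smul_sub, norm_smul, abs_of_pos hl]

omit [FiniteDimensional ℝ E] in
lemma dil_mem_ball (a : E) {l : ℝ} (hl : 0 < l) (x z : E) (R : ℝ) :
    dil a l x ∈ ball (dil a l z) (l * R) ↔ x ∈ ball z R := by
  rw [mem_ball, mem_ball, dist_dil a hl]
  constructor
  · intro h; exact lt_of_mul_lt_mul_left h hl.le
  · intro h; exact mul_lt_mul_of_pos_left h hl

omit [FiniteDimensional ℝ E] in
lemma preimage_dil_ball (a : E) {l : ℝ} (hl : 0 < l) (z : E) (R : ℝ) :
    dil a l ⁻¹' ball (dil a l z) (l * R) = ball z R := by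
  ext x; exact dil_mem_ball a hl x z R

/-- the transported field of planes -/
noncomputable def dilP (a : E) (l : ℝ) (P : E → E →L[ℝ] E) (y : E) : E →L[ℝ] E :=
  P (dilInv a l y)

@[simp] lemma dilP_dil (a : E) {l : ℝ} (hl : 0 < l) (P : E → E →L[ℝ] E) (y : E) :
    dilP a l P (dil a l y) = P y := by simp [dilP, dilInv_dil a hl]

variable [MeasurableSpace E] [BorelSpace E]

/-- the transported measure -/
noncomputable def dilM (m : ℕ) (a : E) (l : ℝ) (ν : Measure E) : Measure E :=
  ENNReal.ofReal (l ^ m) • ν.map (dil a l)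

omit [FiniteDimensional ℝ E] in
lemma measurableEmbedding_dil (a : E) {l : ℝ} (hl : 0 < l) : MeasurableEmbedding (dil a l) :=
  (dilHomeo a hl).measurableEmbedding

variable {m Q : ℕ} {a : E} {l : ℝ} {ν : Measure E} {P : E → E →L[ℝ] E} {T : Submodule ℝ E}

section
variable {F : Type*} [NormedAddCommGroup F] [NormedSpace ℝ F]

omit [FiniteDimensional ℝ E] in
lemma integral_dilM (m : ℕ) (hl : 0 < l) (f : E → F) :
    ∫ y, f y ∂(dilM m a l ν) = l ^ m • ∫ y, f (dil a l y) ∂ν := by
  rw [dilM, integral_smul_measure, (measurableEmbedding_dil a hl).integral_map,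
    ENNReal.toReal_ofReal (pow_nonneg hl.le m)]

omit [FiniteDimensional ℝ E] in
lemma setIntegral_dilM (m : ℕ) (hl : 0 < l) (A : Set E) (f : E → F) :
    ∫ y in A, f y ∂(dilM m a l ν) = l ^ m • ∫ y in dil a l ⁻¹' A, f (dil a l y) ∂ν := by
  rw [dilM, Measure.restrict_smul, integral_smul_measure,
    (measurableEmbedding_dil a hl).setIntegral_map, ENNReal.toReal_ofReal (pow_nonneg hl.le m)]

omit [FiniteDimensional ℝ E] in
lemma ae_dilM (m : ℕ) (hl : 0 < l) {p : E → Prop} :
    (∀ᵐ y ∂(dilM m a l ν), p y) ↔ ∀ᵐ y ∂ν, p (dil a l y) := by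
  rw [dilM, Measure.ae_ennreal_smul_measure_iff (by simpa using pow_pos hl m),
    (measurableEmbedding_dil a hl).ae_map_iff]

omit [FiniteDimensional ℝ E] in
lemma real_dilM (m : ℕ) (hl : 0 < l) (A : Set E) :
    (dilM m a l ν).real A = l ^ m * ν.real (dil a l ⁻¹' A) := by
  rw [dilM, measureReal_ennreal_smul_apply, measureReal_def, measureReal_def,
    (measurableEmbedding_dil a hl).map_apply, ENNReal.toReal_ofReal (pow_nonneg hl.le m)]

omit [FiniteDimensional ℝ E] in
lemma dilM_apply (m : ℕ) (hl : 0 < l) (A : Set E) :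
    dilM m a l ν A = ENNReal.ofReal (l ^ m) * ν (dil a l ⁻¹' A) := by
  rw [dilM, Measure.smul_apply, (measurableEmbedding_dil a hl).map_apply, smul_eq_mul]

lemma isFinite_dilM [IsFiniteMeasure ν] (hl : 0 < l) : IsFiniteMeasure (dilM m a l ν) := by
  constructor
  rw [dilM_apply m hl]
  exact ENNReal.mul_lt_top ENNReal.ofReal_lt_top (measure_lt_top _ _)

omit [FiniteDimensional ℝ E] in
lemma aestronglyMeasurable_dilM (m : ℕ) (hl : 0 < l) {f : E → F} :
    AEStronglyMeasurable f (dilM m a l ν) ↔ AEStronglyMeasurable (fun y => f (dil a l y)) ν := by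
  rw [dilM]
  have h0 : ENNReal.ofReal (l ^ m) ≠ 0 := by simpa using pow_pos hl m
  have h1 : AEStronglyMeasurable f (ENNReal.ofReal (l ^ m) • ν.map (dil a l)) ↔
      AEStronglyMeasurable f (ν.map (dil a l)) := by
    constructor
    · intro h
      exact h.mono_ac (Measure.AbsolutelyContinuous.rfl.smul_right h0)
    · intro h
      exact h.smul_measure _
  rw [h1]
  exact (measurableEmbedding_dil a hl).aestronglyMeasurable_map_iff

end

/-- **approximate tangent planes are invariant** -/
lemma isApproxTangent_dil (hl : 0 < l) {x : E} {q : ℕ} {S : Submodule ℝ E}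
    (h : IsApproxTangent m ν x q S) : IsApproxTangent m (dilM m a l ν) (dil a l x) q S := by
  refine ⟨h.1, fun f hf hc => ?_⟩
  have h1 := h.2 f hf hc
  have h2 : Tendsto (fun r : ℝ => l⁻¹ * r) (𝓝[>] 0) (𝓝[>] 0) := by
    refine tendsto_nhdsWithin_iff.2 ⟨?_, ?_⟩
    · have : Tendsto (fun r : ℝ => l⁻¹ * r) (𝓝 0) (𝓝 (l⁻¹ * 0)) :=
        (continuous_const.mul continuous_id).tendsto 0
      rw [mul_zero] at this
      exact this.mono_left nhdsWithin_le_nhds
    · filter_upwards [self_mem_nhdsWithin] with r hr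
      exact mul_pos (inv_pos.2 hl) hr
  have h3 := h1.comp h2
  refine h3.congr' ?_
  filter_upwards [self_mem_nhdsWithin] with r hr
  have hr0 : (0:ℝ) < r := hr
  simp only [Function.comp]
  rw [integral_dilM m hl, smul_eq_mul, mul_pow]
  have : ∀ y : E, f ((l⁻¹ * r)⁻¹ • (y - x)) = f (r⁻¹ • (dil a l y - dil a l x)) := by
    intro y
    congr 1
    simp only [dil, add_sub_add_left_eq_sub, ← smul_sub, smul_smul]
    congr 1
    rw [mul_inv, inv_inv, mul_comm]
  simp only [this]
  rw [inv_pow]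
  field_simp

/-- **`CylStat` is invariant.** -/
theorem cylStat_dil (hl : 0 < l) {G : Set E} {h h' : ℝ} (hC : FV.CylStat m T G h ν P)
    (hh : ∀ᵐ y ∂ν, T.starProjection y ∈ G →
      ‖dil a l y - T.starProjection (dil a l y)‖ ≤ h') :
    FV.CylStat m T (dilInv (T.starProjection a) l ⁻¹' G) h' (dilM m a l ν) (dilP a l P) := by
  have := hC.fin
  refine ⟨isFinite_dilM hl, ?_, ?_, hC.dimT, hC.isOpen.preimage (continuous_dilInv _ _), ?_, ?_⟩
  · rw [aestronglyMeasurable_dilM m hl]
    simpa only [dilP_dil a hl] using hC.meas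
  · rw [ae_dilM m hl]
    simpa only [dilP_dil a hl] using hC.proj
  · rw [ae_dilM m hl]
    filter_upwards [hh] with y hy h1
    rw [mem_preimage, star_dil, dilInv_dil _ hl] at h1
    exact hy h1
  · intro X hX hb
    rw [integral_dilM m hl]
    obtain ⟨K, hK, hKG, h0⟩ := hb
    set Y : E → E := fun y => X (dil a l y) with hY
    have hdil : ContDiff ℝ 1 (dil a l) := contDiff_const.add (contDiff_id.const_smul l)
    have hYc : ContDiff ℝ 1 Y := hX.comp hdil
    have hYb : FV.BaseCpt T G Y := by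
      refine ⟨dilInv (T.starProjection a) l '' K, hK.image (continuous_dilInv _ _), ?_, ?_⟩
      · rintro _ ⟨x, hx, rfl⟩
        exact hKG hx
      · intro y hy
        refine h0 _ fun hmem => hy ⟨_, hmem, ?_⟩
        rw [star_dil, dilInv_dil _ hl]
    have h1 := hC.stat Y hYc hYb
    have h2 : ∀ y, fderiv ℝ Y y = l • fderiv ℝ X (dil a l y) := by
      intro y
      have hd : HasFDerivAt (dil a l) (l • ContinuousLinearMap.id ℝ E) y := by
        have := ((hasFDerivAt_id (𝕜 := ℝ) y).const_smul l).const_add a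
        exact this
      have hXd : HasFDerivAt X (fderiv ℝ X (dil a l y)) (dil a l y) :=
        (hX.differentiable (by norm_num) _).hasFDerivAt
      have := (hXd.comp y hd).fderiv
      change fderiv ℝ (X ∘ dil a l) y = _
      rw [this]
      ext v
      simp
    have h3 : ∀ y, FV.tr ((fderiv ℝ X (dil a l y)).comp (dilP a l P (dil a l y))) =
        l⁻¹ * FV.tr ((fderiv ℝ Y y).comp (P y)) := by
      intro y
      rw [h2, dilP_dil a hl, ContinuousLinearMap.smul_comp, FV.tr_smul, ← mul_assoc,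
        inv_mul_cancel₀ hl.ne', one_mul]
    simp only [h3]
    rw [integral_const_mul, h1, mul_zero, smul_zero]

lemma preimage_dilInv_ball (b : E) (hl : 0 < l) (z : E) (R : ℝ) :
    dilInv b l ⁻¹' ball z R = ball (dil b l z) (l * R) := by
  ext x
  rw [mem_preimage, ← dil_mem_ball b hl, dil_dilInv b hl]

/-- the version for base balls and `a ∈ T` -/
theorem cylStat_dil_ball (hl : 0 < l) (ha : a ∈ T) {z : E} {R h : ℝ}
    (hC : FV.CylStat m T (ball z R) h ν P) :
    FV.CylStat m T (ball (dil a l z) (l * R)) (l * h) (dilM m a l ν) (dilP a l P) := by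
  have h1 : T.starProjection a = a := Submodule.starProjection_eq_self_iff.2 ha
  have h2 := cylStat_dil (a := a) hl (h' := l * h) hC ?_
  · rw [h1, preimage_dilInv_ball a hl] at h2
    exact h2
  · filter_upwards [hC.slab] with y hy hmem
    have h3 : dil a l y - T.starProjection (dil a l y) = l • (y - T.starProjection y) := by
      rw [star_dil, h1]; simp [dil, smul_sub]
    rw [h3, norm_smul, Real.norm_eq_abs, abs_of_pos hl]
    exact mul_le_mul_of_nonneg_left (hy hmem) hl.le

/-! ### the Hausdorff measure of the base plane -/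

omit [FiniteDimensional ℝ E] in
lemma hausdorff_image_dil (m : ℕ) (b : E) (hl : 0 < l) (s : Set E) :
    (μH[m] : Measure E) (dil b l '' s) = ENNReal.ofReal (l ^ m) * μH[m] s := by
  have h1 : dil b l '' s = b +ᵥ (l • s) := by
    ext x
    simp only [mem_image, dil, Set.mem_vadd_set, Set.mem_smul_set, vadd_eq_add]
    constructor
    · rintro ⟨y, hy, rfl⟩
      exact ⟨l • y, ⟨y, hy, rfl⟩, rfl⟩
    · rintro ⟨_, ⟨y, hy, rfl⟩, rfl⟩
      exact ⟨y, hy, rfl⟩
  rw [h1, hausdorffMeasure_vadd b (Or.inl (Nat.cast_nonneg m)),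
    Measure.hausdorffMeasure_smul₀ (Nat.cast_nonneg m) hl.ne']
  rw [ENNReal.smul_def, smul_eq_mul]
  congr 1
  rw [NNReal.rpow_natCast, ENNReal.coe_pow, ENNReal.ofReal_pow hl.le]
  congr 1
  rw [← ENNReal.ofReal_coe_nnreal]
  simp [abs_of_pos hl]

lemma dilM_plane (m : ℕ) {b : E} (hb : b ∈ T) (hl : 0 < l) :
    dilM m b l ((μH[m] : Measure E).restrict (T : Set E)) = (μH[m] : Measure E).restrict T := by
  ext s hs
  rw [dilM_apply m hl, Measure.restrict_apply hs,
    Measure.restrict_apply (hs.preimage (measurableEmbedding_dil b hl).measurable),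
    ← hausdorff_image_dil m b hl]
  congr 1
  ext x
  constructor
  · rintro ⟨y, ⟨h1, h2⟩, rfl⟩
    exact ⟨h1, T.add_mem hb (T.smul_mem l h2)⟩
  · rintro ⟨h1, h2⟩
    refine ⟨dilInv b l x, ⟨?_, ?_⟩, dil_dilInv b hl x⟩
    · rwa [mem_preimage, dil_dilInv b hl]
    · exact T.smul_mem _ (T.sub_mem h2 hb)

lemma integral_plane_dil (m : ℕ) {b : E} (hb : b ∈ T) (hl : 0 < l) (φ : E → ℝ) :
    ∫ x in (T : Set E), φ x ∂(μH[m] : Measure E) =
      l ^ m * ∫ x in (T : Set E), φ (dil b l x) ∂(μH[m] : Measure E) := by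
  conv_lhs => rw [← dilM_plane m hb hl, integral_dilM m hl, smul_eq_mul]

/-! ### absolute continuity and the lower bound `μH ≤ ν` on a carrier -/

omit [FiniteDimensional ℝ E] [MeasurableSpace E] [BorelSpace E] in
lemma image_preimage_dil (a : E) {l : ℝ} (hl : 0 < l) (A : Set E) :
    dil a l '' (dil a l ⁻¹' A) = A :=
  image_preimage_eq A (dilHomeo a hl).surjective

lemma ac_dilM (hl : 0 < l) (h : ν ≪ (μH[m] : Measure E)) :
    dilM m a l ν ≪ (μH[m] : Measure E) := by
  intro A hA
  rw [dilM_apply m hl]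
  have h1 : ENNReal.ofReal (l ^ m) * (μH[m] : Measure E) (dil a l ⁻¹' A) = 0 := by
    rw [← hausdorff_image_dil m a hl, image_preimage_dil a hl]
    exact hA
  have h2 : (μH[m] : Measure E) (dil a l ⁻¹' A) = 0 := by
    rcases mul_eq_zero.1 h1 with h3 | h3
    · exact absurd h3 (by simpa using pow_pos hl m)
    · exact h3
  rw [h h2, mul_zero]

lemma low_dilM (hl : 0 < l) {c : Set E} (h : ∀ S ⊆ c, MeasurableSet S → (μH[m] : Measure E) S ≤ ν S)
    {S : Set E} (hS : S ⊆ dil a l '' c) (hm : MeasurableSet S) :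
    (μH[m] : Measure E) S ≤ dilM m a l ν S := by
  rw [dilM_apply m hl]
  have h1 : S = dil a l '' (dil a l ⁻¹' S) := by
    rw [image_preimage_dil a hl]
  conv_lhs => rw [h1, hausdorff_image_dil m a hl]
  refine mul_le_mul_right (h _ ?_ (hm.preimage (measurableEmbedding_dil a hl).measurable)) _
  intro x hx
  obtain ⟨y, hy, hyx⟩ := hS hx
  rwa [← (dilHomeo a hl).injective hyx]

lemma ae_mem_image_dil (hl : 0 < l) {c : Set E} (h : ∀ᵐ y ∂ν, y ∈ c) :
    ∀ᵐ y ∂(dilM m a l ν), y ∈ dil a l '' c := by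
  rw [ae_dilM m hl]
  filter_upwards [h] with y hy
  exact ⟨y, hy, rfl⟩

end Vale.Agent.P214.SCALE
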