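import Vale.Agent.P214.SCALE.Iso

/-! P214, block SCALE: everything is in `Dil`, `Int`, `Iso`. -/
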